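import Mathlib

open MeasureTheory Set
open scoped ContDiff Manifold

namespace Vale.Agent.P109

/-- Isomorphism modulo null sets, as in the problem: a bijection between invariant conull
measurable sets, measurable with measurable inverse, carrying `μ` to `ν` and intertwining the
transformations. -/
def IsoMod0 {X Y : Type*} [MeasurableSpace X] [MeasurableSpace Y]
    (μ : Measure X) (T : X → X) (ν : Measure Y) (S : Y → Y) : Prop :=
  ∃ (X₀ : Set X) (Y₀ : Set Y), MeasurableSet X₀ ∧ MeasurableSet Y₀ ∧ μ X₀ᶜ = 0 ∧ ν Y₀ᶜ = 0 ∧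
    T ⁻¹' X₀ = X₀ ∧ S ⁻¹' Y₀ = Y₀ ∧
    ∃ F : X₀ ≃ᵐ Y₀, (∀ (x : X₀) (hx : T x ∈ X₀), ((F ⟨T x, hx⟩ : Y₀) : Y) = S (F x)) ∧
      (μ.comap ((↑) : X₀ → X)).map F = ν.comap ((↑) : Y₀ → Y)

section
variable (E : Type) [NormedAddCommGroup E] [InnerProductSpace ℝ E] [FiniteDimensional ℝ E]
  [MeasurableSpace E] [BorelSpace E]

/-- `ν` is given in the local coordinates of the charts of the manifold `M`, modelled on the
Euclidean space `E`, by a smooth strictly positive density with respect to Lebesgue measure. -/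
def SmoothPositiveVolume (M : Type) [TopologicalSpace M] [ChartedSpace E M] [MeasurableSpace M]
    (ν : Measure M) : Prop :=
  ∀ e ∈ atlas E M, ∃ ρ : E → ℝ, ContDiffOn ℝ ∞ ρ e.target ∧ (∀ x ∈ e.target, 0 < ρ x) ∧
    (ν.restrict e.source).map e =
      (volume.restrict e.target).withDensity (fun x => ENNReal.ofReal (ρ x))

/-- `M` is a closed manifold (compact, Hausdorff, second countable, `C^∞`, without boundary),
modelled on the Euclidean space `E`. -/
structure ClosedManifold (M : Type) [TopologicalSpace M] [ChartedSpace E M] : Prop where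
  t2 : T2Space M
  countable : SecondCountableTopology M
  compact : CompactSpace M
  smooth : IsManifold 𝓘(ℝ, E) ∞ M

/-- `S` is a `C^∞` diffeomorphism of `M`. -/
def IsDiffeo (M : Type) [TopologicalSpace M] [ChartedSpace E M] (S : M → M) : Prop :=
  ∃ Φ : M ≃ₘ^∞⟮𝓘(ℝ, E), 𝓘(ℝ, E)⟯ M, ⇑Φ = S

/-- `(X, μ, T)` has a smooth positive-volume model on a closed manifold modelled on the
Euclidean space `E`. -/
def HasModel {X : Type*} [MeasurableSpace X] (μ : Measure X) (T : X → X) : Prop :=
  ∃ (M : Type) (_ : TopologicalSpace M) (_ : ChartedSpace E M) (_ : MeasurableSpace M)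
    (ν : Measure M) (S : M → M),
    ClosedManifold E M ∧ BorelSpace M ∧ IsProbabilityMeasure ν ∧ SmoothPositiveVolume E M ν ∧
      IsDiffeo E M S ∧ MeasurePreserving S ν ν ∧ IsoMod0 μ T ν S

end

end Vale.Agent.P109
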